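import Vale.Agent.P344.MathlibUsed

namespace Vale.Agent.P344

/-- One gate of a linear circuit; the arguments are positions in the list of values computed so
far. -/
inductive Gate : Type
  | add (i j : ℕ) : Gate
  | sub (i j : ℕ) : Gate
  | smul (c : ℂ) (i : ℕ) : Gate

/-- The value computed by a gate from the list of the values computed so far. A position beyond
the end of the list stands for the constant `0`. -/
noncomputable def Gate.val : Gate → List ℂ → ℂ
  | Gate.add i j, v => v.getD i 0 + v.getD j 0
  | Gate.sub i j, v => v.getD i 0 - v.getD j 0
  | Gate.smul c i, v => c * v.getD i 0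

/-- Run a list of gates: each gate appends the value it computes. -/
noncomputable def run : List Gate → List ℂ → List ℂ
  | [], v => v
  | g :: P, v => run P (v ++ [g.val v])

/-- The circuit `P` with inputs `x 0, ..., x (n-1)` computes the discrete Fourier transform
`F_n x` for every `x`. -/
def ComputesDFT (n : ℕ) (P : List Gate) : Prop :=
  ∃ out : Fin n → ℕ, ∀ x : Fin n → ℂ, ∀ j : Fin n,
    (run P (List.ofFn x)).getD (out j) 0 =
      ∑ k : Fin n, Complex.exp (2 * Real.pi * Complex.I * (j : ℕ) * (k : ℕ) / n) * x k

/-- The least number of gates of a linear circuit computing `F_n`. -/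
noncomputable def L (n : ℕ) : ℕ :=
  sInf {s | ∃ P : List Gate, P.length = s ∧ ComputesDFT n P}

end Vale.Agent.P344
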